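import Vale.Agent.P207Z.Lie.RankOne

/-!
# Weaker hypotheses, and orthonormal frames
-/

open Module LieAlgebra

noncomputable section

namespace Vale.Agent.P207Z.Lie

variable {g : Type*} [LieRing g] [LieAlgebra ℝ g] [FiniteDimensional ℝ g] {H : g}
  {μ : g →ₗ[ℝ] ℝ}

theorem inp_of (q : g →ₗ[ℝ] g →ₗ[ℝ] ℝ) (diag : ⨆ l, wt H l = ⊤) (h1 : μ H = 1)
    (h2 : ∀ Z ∈ wt H 0, ∀ X : g, μ ⁅Z, X⁆ = 0)
    (h3 : ∀ l, l ≠ 0 → ∀ Z ∈ wt H l, (∀ W : g, μ ⁅Z, W⁆ = 0) → Z = 0)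
    (h4 : ∀ Z ∈ wt H 0, μ Z = 0 → (∀ l, 0 < l → ∀ W ∈ wt H l, ⁅Z, W⁆ = 0) → Z = 0)
    (h5 : ∀ v w, q v w = q w v) (h6 : ∀ l, 0 < l → ∀ W ∈ wt H l, W ≠ 0 → 0 < q W W)
    (h7 : ∀ Z ∈ wt H 0, μ Z = 0 → ∀ l, 0 < l → ∀ W ∈ wt H l, ∀ W' ∈ wt H l,
      q ⁅Z, W⁆ W' + q W ⁅Z, W'⁆ = 0)
    (h8 : ∃ l, 0 < l ∧ wt H l ≠ ⊥) : Inp H μ := by
  classical
  have m0 : ∀ l, l ≠ 0 → ∀ X ∈ wt H l, μ X = 0 := fun l hl X hX => by
    have := h2 H (self_mem_wt H) X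
    rw [mem_wt.1 hX, map_smul, smul_eq_zero] at this
    exact this.resolve_left hl
  let ω : g →ₗ[ℝ] g →ₗ[ℝ] ℝ :=
    (LinearMap.mk₂ ℝ (⁅·, ·⁆) add_lie smul_lie lie_add lie_smul).compr₂ μ
  have hω : ∀ X Y, ω X Y = μ ⁅X, Y⁆ := fun _ _ => rfl
  obtain ⟨q₀, hq⟩ := exists_isIP g
  obtain ⟨Q, Q1, Q2⟩ := glue diag (fun l => if 0 < l then q else q₀)
    (fun l X _ Y _ => by split_ifs; exacts [h5 X Y, hq.symm X Y])
    fun l X hX h => by split_ifs with hl; exacts [h6 l hl X hX h, hq.pos X h]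
  obtain ⟨π, hπ⟩ := exists_proj diag (0 < ·)
  have p1 : ∀ Z ∈ wt H 0, ∀ X, π ⁅Z, X⁆ = ⁅Z, π X⁆ := fun Z hZ X =>
    LinearMap.congr_fun (ext_piece _ diag (f := π ∘ₗ ad ℝ g Z) (g := ad ℝ g Z ∘ₗ π)
      fun l X hX => by
        simp only [LinearMap.comp_apply, ad_apply, hπ l X hX, hπ l _ (lie_mem_wt₀ hZ hX)]
        split_ifs <;> simp) X
  have p2 : ∀ X, π (π X) = π X := fun X =>
    LinearMap.congr_fun (ext_piece _ diag (f := π ∘ₗ π) (g := π) fun l X hX => by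
      by_cases hl : 0 < l <;> simp [hπ l X hX, hl]) X
  have sk : ∀ Z ∈ wt H 0, μ Z = 0 → ∀ X Y, Q ⁅Z, π X⁆ Y = -Q X ⁅Z, π Y⁆ := fun Z hZ h0 =>
    ext₂ diag (Q ∘ₗ ad ℝ g Z ∘ₗ π) (-Q.compl₂ (ad ℝ g Z ∘ₗ π)) fun l l' X hX Y hY => by
      simp only [LinearMap.comp_apply, LinearMap.neg_apply, LinearMap.compl₂_apply, ad_apply,
        ← p1 Z hZ, hπ l _ (lie_mem_wt₀ hZ hX), hπ l' _ (lie_mem_wt₀ hZ hY)]
      by_cases h : l' = l
      · subst h
        by_cases hl : 0 < l'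
        · simp only [hl, if_true, Q2 _ _ _ (lie_mem_wt₀ hZ hX) Y hY,
            Q2 _ _ X hX _ (lie_mem_wt₀ hZ hY)]
          linarith [h7 Z hZ h0 _ hl X hX Y hY]
        · simp [hl]
      · split_ifs <;>
          simp [Q2 _ _ _ (lie_mem_wt₀ hZ hX) Y hY, Q2 _ _ X hX _ (lie_mem_wt₀ hZ hY), h]
  refine ⟨diag, h1, h2, fun X hX => ?_, fun l => ?_,
    fun Z hZ h0 h => h4 Z hZ h0 fun _ _ W _ => h W, h8.imp fun l h => ⟨h.1.ne', h.2⟩⟩
  · obtain ⟨f, hf, rfl⟩ :=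
      (Submodule.mem_iSup_iff_exists_finsupp _ X).1 (diag ▸ Submodule.mem_top)
    refine Submodule.sum_mem _ fun l hl => ?_
    by_cases h0 : l = 0
    · exact h0 ▸ hf l
    refine absurd (h3 l h0 _ (hf l) fun W => LinearMap.congr_fun (ext_piece _ diag (f := ω (f l))
      (g := 0) fun k W hW => ?_) W) (Finsupp.mem_support_iff.1 hl)
    by_cases hk : l + k = 0
    · have := hX W
      rw [← hω, Finsupp.sum, map_sum, LinearMap.sum_apply] at this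
      exact (Finset.sum_eq_single_of_mem (f := fun d => ω (f d) W) l hl fun l' _ h =>
        m0 _ (fun h' => h (by linarith)) _ (lie_mem_wt (hf l') hW)).symm.trans this
    · exact m0 _ hk _ (lie_mem_wt (hf l) hW)
  rcases lt_trichotomy l 0 with hl | rfl | hl
  · obtain ⟨D, hD⟩ := Q1.dual ω
    refine ⟨Q.compl₁₂ D D, fun X _ Y _ => Q1.symm _ _, fun X hX h => Q1.pos _ fun h' =>
      h (h3 l hl.ne X hX fun W => by rw [← hω, ← hD, h']; simp), fun Z hZ h0 => ?_⟩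
    have : ∀ X ∈ wt H l, D ⁅Z, X⁆ = ⁅Z, π (D X)⁆ := fun X hX => Q1.ext fun W => by
      rw [sk Z hZ h0, hD, hD]
      refine LinearMap.congr_fun (ext_piece _ diag (f := ω ⁅Z, X⁆)
        (g := -(ω X) ∘ₗ ad ℝ g Z ∘ₗ π) fun k W hW => ?_) W
      simp only [LinearMap.comp_apply, LinearMap.neg_apply, ad_apply, hπ k W hW, hω]
      split_ifs with hk
      · rw [lie_lie, map_sub, h2 Z hZ, zero_sub]
      · simpa using m0 _ (by linarith) _ (lie_mem_wt (lie_mem_wt₀ hZ hX) hW)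
    intro X hX Y hY
    simp only [LinearMap.compl₁₂_apply, this X hX, this Y hY, sk Z hZ h0, neg_add_cancel]
  · let T : g →ₗ[ℝ] g →ₗ[ℝ] ℝ := LinearMap.mk₂ ℝ
      (fun X Y => LinearMap.trace ℝ g (ad ℝ g X * ad ℝ g Y * π))
      (by simp [add_mul]) (by simp) (by simp [mul_add, add_mul]) (by simp)
    have hT : ∀ X Y, T X Y = LinearMap.trace ℝ g (ad ℝ g X * ad ℝ g Y * π) := fun _ _ => rfl
    have c1 : ∀ Z ∈ wt H 0, π * ad ℝ g Z = ad ℝ g Z * π := fun Z hZ => LinearMap.ext (p1 Z hZ)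
    let r : g →ₗ[ℝ] g := LinearMap.id - μ.smulRight H
    have hr : ∀ X, r X = X - μ X • H := fun _ => rfl
    have r1 : ∀ X ∈ wt H 0, r X ∈ wt H 0 ∧ μ (r X) = 0 := fun X hX =>
      ⟨sub_mem hX (Submodule.smul_mem _ _ (self_mem_wt H)), by simp [hr, h1]⟩
    refine ⟨μ.smulRight μ - T.compl₁₂ r r, fun X hX Y hY => ?_, fun X hX h => ?_,
      fun Z hZ h0 X hX Y hY => ?_⟩ <;>
      simp only [LinearMap.sub_apply, LinearMap.smulRight_apply, LinearMap.smul_apply,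
        LinearMap.compl₁₂_apply, hT, smul_eq_mul]
    · rw [mul_comm (μ X), mul_assoc, LinearMap.trace_mul_comm, mul_assoc, c1 _ (r1 X hX).1,
        mul_assoc]
    · by_cases h9 : r X = 0
      · have : μ X ≠ 0 := fun h10 => h (by simpa [hr, h10] using h9)
        simpa [h9] using this
      have := Q1.trace_pos (A := ad ℝ g (r X) ∘ₗ π) (A' := -ad ℝ g (r X) ∘ₗ π)
        (sk _ (r1 X hX).1 (r1 X hX).2 · · |>.trans (map_neg _ _).symm)
        fun h10 => h9 (h4 _ (r1 X hX).1 (r1 X hX).2 fun l hl W hW => by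
          simpa [hπ l W hW, hl] using LinearMap.congr_fun h10 W)
      have e : (-ad ℝ g (r X) ∘ₗ π) ∘ₗ ad ℝ g (r X) ∘ₗ π = -(ad ℝ g (r X) * ad ℝ g (r X) * π) :=
        LinearMap.ext fun W => by simp [p1 _ (r1 X hX).1, p2]
      rw [e, map_neg] at this
      linarith [mul_self_nonneg (μ X)]
    · have e : ∀ X, r ⁅Z, X⁆ = ⁅Z, r X⁆ := fun X => by
        rw [hr, hr, h2 Z hZ, lie_sub, lie_smul, ← lie_skew Z H, mem_wt.1 hZ]
        simp
      have e' : ∀ X, ad ℝ g ⁅Z, X⁆ = ad ℝ g Z * ad ℝ g X - ad ℝ g X * ad ℝ g Z := fun X =>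
        LinearMap.ext fun W => by simp
      have e'' : LinearMap.trace ℝ g (ad ℝ g (r X) * (ad ℝ g (r Y) * (ad ℝ g Z * π))) =
          LinearMap.trace ℝ g (ad ℝ g Z * (ad ℝ g (r X) * (ad ℝ g (r Y) * π))) := by
        rw [← c1 Z hZ, LinearMap.trace_mul_comm ℝ (ad ℝ g Z)]
        simp only [mul_assoc]
      simp only [h2 Z hZ, e, e', sub_mul, mul_sub, map_sub, mul_assoc, e'']
      ring
  · exact ⟨q, fun X _ Y _ => h5 X Y, h6 l hl, fun Z hZ h0 => h7 Z hZ h0 l hl⟩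

theorem Out.frame {a : ℝ} {θ : g →ₗ[ℝ] g} (o : Out H μ a θ) (h : Inp H μ) :
    ∃ (n : ℕ) (lam : Fin n → ℝ) (Y : Fin n → g), (∀ i, lam i = a ∨ lam i = 2 * a) ∧
      (∃ i, lam i = a) ∧ (∀ i, Y i ∈ wt H (lam i)) ∧ 2 * ∑ i, lam i ^ 2 = B g H H ∧
      (∀ i j, -B g (Y i) (θ (Y j)) / B g H H = if i = j then 1 else 0) ∧
      ∀ Z, ∃ (Z₀ : g) (s t : Fin n → ℝ), ⁅H, Z₀⁆ = 0 ∧
        Z = Z₀ + ∑ i, s i • Y i + ∑ i, t i • θ (Y i) := by
  have hb := h.B_HH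
  have ha := o.a_pos
  let Q : g →ₗ[ℝ] g →ₗ[ℝ] ℝ := (-(B g H H)⁻¹) • (B g).compl₂ θ
  have hQ : ∀ X Y, Q X Y = -B g X (θ Y) / B g H H := fun X Y => by
    simp only [Q, LinearMap.smul_apply, LinearMap.compl₂_apply, smul_eq_mul]
    ring
  have Q1 : IsIP Q := ⟨fun X Y => by rw [hQ, hQ, o.tau.symm, B_comm],
    fun X hX => hQ X X ▸ div_pos (neg_pos.2 (o.tau.neg X hX)) hb⟩
  have Q2 : ∀ {l l' X Y}, X ∈ wt H l → Y ∈ wt H l' → l ≠ l' → Q X Y = 0 := fun hX hY hl => by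
    rw [hQ, B_wt hX (o.tau.mem hY) (sub_ne_zero.2 hl), neg_zero, zero_div]
  obtain ⟨n, b, b1, b2, b3⟩ := Q1.basis (wt H a)
  obtain ⟨n', b', b1', b2', b3'⟩ := Q1.basis (wt H (2 * a))
  have h2 : a ≠ 2 * a := by linarith
  let lam : Fin (n + n') → ℝ := Fin.append (fun _ => a) fun _ => 2 * a
  let Y : Fin (n + n') → g := Fin.append b b'
  have hY : ∀ i, Y i ∈ wt H (lam i) := fun i => by
    induction i using Fin.addCases <;> simp [Y, lam, b1, b1']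
  have on : ∀ i j, Q (Y i) (Y j) = if i = j then 1 else 0 := fun i j => by
    induction i using Fin.addCases <;> induction j using Fin.addCases <;>
      simp [Y, b2, b2', Q2 (b1 _) (b1' _) h2, Q2 (b1' _) (b1 _) h2.symm, Fin.ext_iff] <;> omega
  have ex : ∀ (c : ℝ → ℝ) l, ∀ X ∈ wt H l,
      ∑ i, (c (lam i) * Q (Y i) X) • Y i = if 0 < l then c l • X else 0 := fun c l X hX => by
    simp only [Fin.sum_univ_add, Y, lam, Fin.append_left, Fin.append_right, mul_smul,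
      ← Finset.smul_sum]
    by_cases h3 : l = a
    · subst h3
      simp [b3 X hX, Q2 (b1' _) hX h2.symm, ha]
    by_cases h4 : l = 2 * a
    · subst h4
      simp [b3' X hX, Q2 (b1 _) hX h2, ha]
    simp only [Q2 (b1 _) hX (Ne.symm h3), Q2 (b1' _) hX (Ne.symm h4), zero_smul,
      Finset.sum_const_zero, smul_zero, add_zero]
    split_ifs with h5
    · have : wt H l = ⊥ := by
        by_contra h6
        rcases o.wts l h6 with h | h | h | h | h <;> first | contradiction | linarith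
      rw [(Submodule.eq_bot_iff _).1 this X hX, smul_zero]
    · rfl
  let S (c : ℝ → ℝ) : g →ₗ[ℝ] g := ∑ i, (c (lam i) • Q (Y i)).smulRight (Y i)
  have hS : ∀ c X, S c X = ∑ i, (c (lam i) * Q (Y i) X) • Y i := fun c X => by simp [S]
  refine ⟨_, lam, Y, fun i => ?_, ?_, hY, ?_, fun i j => hQ _ _ ▸ on i j, fun Z => ?_⟩
  · induction i using Fin.addCases <;> simp [lam]
  · obtain ⟨X, hX, h3⟩ := (Submodule.ne_bot_iff _).1 o.a_ne
    rcases n with _ | n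
    · exact absurd (by simpa using (b3 X hX).symm) h3
    · exact ⟨Fin.castAdd n' 0, by simp [lam]⟩
  · have e : ad ℝ g H ∘ₗ ad ℝ g H = S (· ^ 2) + θ ∘ₗ S (· ^ 2) ∘ₗ θ :=
      ext_piece _ h.diag fun l X hX => by
        simp only [LinearMap.comp_apply, LinearMap.add_apply, ad_apply, mem_wt.1 hX, lie_smul, hS,
          ex (· ^ 2) l X hX, ex (· ^ 2) _ _ (o.tau.mem hX), smul_smul]
        rcases lt_trichotomy l 0 with hl | rfl | hl
        · simp [hl, hl.not_gt, o.invol, sq]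
        · simp
        · simp [hl, hl.not_gt, sq]
    have e' : (S (· ^ 2) ∘ₗ θ) ∘ₗ θ = S (· ^ 2) := LinearMap.ext fun X => by simp [o.invol]
    rw [killingForm_apply_apply, e, map_add, LinearMap.trace_comp_comm', e', two_mul]
    simp [S, on]
  · refine ⟨Z - S 1 Z - θ (S 1 (θ Z)), fun i => Q (Y i) Z, fun i => Q (Y i) (θ Z), ?_, by
      simp only [hS, map_sum, map_smul, Pi.one_apply, one_mul]
      abel⟩
    refine LinearMap.congr_fun (ext_piece _ h.diag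
      (f := ad ℝ g H ∘ₗ (LinearMap.id - S 1 - θ ∘ₗ S 1 ∘ₗ θ)) (g := 0) fun l X hX => ?_) Z
    simp only [LinearMap.comp_apply, LinearMap.sub_apply, LinearMap.id_apply, hS, ex 1 l X hX,
      ex 1 _ _ (o.tau.mem hX)]
    rcases lt_trichotomy l 0 with hl | rfl | hl
    · simp [hl, hl.not_gt, o.invol]
    · simpa using mem_wt.1 hX
    · simp [hl, hl.not_gt]

end Vale.Agent.P207Z.Lie
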