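import Mathlib

/-!
# Linear algebra for the rank one Lie block
-/

open Module

noncomputable section

namespace Vale.Agent.P207Z.Lie

variable {V W : Type*} [AddCommGroup V] [Module ℝ V] [AddCommGroup W] [Module ℝ W]

/-- an inner product, as a bilinear form -/
structure IsIP (Q : V →ₗ[ℝ] V →ₗ[ℝ] ℝ) : Prop where
  symm : ∀ x y, Q x y = Q y x
  pos : ∀ x, x ≠ 0 → 0 < Q x x

theorem IsIP.nonneg {Q : V →ₗ[ℝ] V →ₗ[ℝ] ℝ} (h : IsIP Q) (x : V) : 0 ≤ Q x x := by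
  by_cases hx : x = 0
  · simp [hx]
  · exact (h.pos x hx).le

theorem IsIP.eq_zero {Q : V →ₗ[ℝ] V →ₗ[ℝ] ℝ} (h : IsIP Q) {x : V} (hx : Q x x = 0) : x = 0 :=
  by_contra fun h1 => (h.pos x h1).ne' hx

/-- the core of an inner product space -/
@[reducible] def IsIP.core {Q : V →ₗ[ℝ] V →ₗ[ℝ] ℝ} (h : IsIP Q) : InnerProductSpace.Core ℝ V where
  inner x y := Q x y
  conj_inner_symm x y := h.symm y x
  re_inner_nonneg x := h.nonneg x
  add_left x y z := by simp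
  smul_left x y r := by simp
  definite x hx := h.eq_zero hx

theorem IsIP.frame [FiniteDimensional ℝ V] {Q : V →ₗ[ℝ] V →ₗ[ℝ] ℝ} (h : IsIP Q) :
    ∃ b : Fin (finrank ℝ V) → V, (∀ T : V →ₗ[ℝ] V, LinearMap.trace ℝ V T = ∑ i, Q (b i) (T (b i))) ∧
      ∀ x, x = ∑ i, Q (b i) x • b i := by
  let := h.core
  let := InnerProductSpace.Core.toNormedAddCommGroup (𝕜 := ℝ) (F := V)
  let : InnerProductSpace ℝ V := InnerProductSpace.ofCore h.core.toCore
  exact ⟨stdOrthonormalBasis ℝ V, fun T => LinearMap.trace_eq_sum_inner T _,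
    fun x => ((stdOrthonormalBasis ℝ V).sum_repr' x).symm⟩

theorem IsIP.basis [FiniteDimensional ℝ V] {Q : V →ₗ[ℝ] V →ₗ[ℝ] ℝ} (h : IsIP Q)
    (p : Submodule ℝ V) : ∃ (n : ℕ) (b : Fin n → V), (∀ i, b i ∈ p) ∧
      (∀ i j, Q (b i) (b j) = if i = j then 1 else 0) ∧ ∀ x ∈ p, ∑ i, Q (b i) x • b i = x := by
  let := h.core
  let := InnerProductSpace.Core.toNormedAddCommGroup (𝕜 := ℝ) (F := V)
  let : InnerProductSpace ℝ V := InnerProductSpace.ofCore h.core.toCore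
  let b := stdOrthonormalBasis ℝ p
  exact ⟨_, fun i => b i, fun i => (b i).2, orthonormal_iff_ite.1 b.orthonormal,
    fun x hx => (Submodule.coe_sum p _ _).symm.trans
      (congrArg Subtype.val (b.sum_repr' ⟨x, hx⟩))⟩

theorem exists_isIP (V : Type*) [AddCommGroup V] [Module ℝ V] [FiniteDimensional ℝ V] :
    ∃ Q : V →ₗ[ℝ] V →ₗ[ℝ] ℝ, IsIP Q := by
  let e := (finBasis ℝ V).equivFun.trans (WithLp.linearEquiv 2 ℝ _).symm
  exact ⟨(innerₗ (EuclideanSpace ℝ (Fin (finrank ℝ V)))).compl₁₂ e e,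
    fun x y => real_inner_comm (e y) (e x), fun x hx => real_inner_self_pos.2 (e.map_ne_zero_iff.2 hx)⟩

theorem IsIP.dual [FiniteDimensional ℝ V] {Q : V →ₗ[ℝ] V →ₗ[ℝ] ℝ} (h : IsIP Q)
    (F : W →ₗ[ℝ] V →ₗ[ℝ] ℝ) : ∃ D : W →ₗ[ℝ] V, ∀ w x, Q (D w) x = F w x :=
  have hQ : LinearMap.BilinForm.Nondegenerate Q :=
    ⟨fun X h4 => h.eq_zero (h4 X), fun X h4 => h.eq_zero (h4 X)⟩
  ⟨(LinearMap.BilinForm.toDual Q hQ).symm.toLinearMap ∘ₗ F,
    fun _ _ => LinearMap.BilinForm.apply_toDual_symm_apply (hB := hQ) _ _⟩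

theorem IsIP.ext {Q : V →ₗ[ℝ] V →ₗ[ℝ] ℝ} (h : IsIP Q) {x y : V} (h1 : ∀ z, Q x z = Q y z) :
    x = y := sub_eq_zero.1 (h.eq_zero (by rw [map_sub Q, LinearMap.sub_apply, h1, sub_self]))

/-- a symmetric and a skew operator are trace orthogonal -/
theorem IsIP.trace_symm_skew [FiniteDimensional ℝ V] {Q : V →ₗ[ℝ] V →ₗ[ℝ] ℝ} (h : IsIP Q)
    {S A : V →ₗ[ℝ] V} (hS : ∀ x y, Q (S x) y = Q x (S y)) (hA : ∀ x y, Q (A x) y = -Q x (A y)) :
    LinearMap.trace ℝ V (S ∘ₗ A) = 0 := by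
  obtain ⟨b, h1, -⟩ := h.frame
  have h2 : LinearMap.trace ℝ V (S ∘ₗ A) = -LinearMap.trace ℝ V (A ∘ₗ S) := by
    rw [h1, h1, ← Finset.sum_neg_distrib]
    refine Finset.sum_congr rfl fun i _ => ?_
    rw [LinearMap.comp_apply, LinearMap.comp_apply, ← hS, ← hA, h.symm]
  rw [LinearMap.trace_comp_comm' S A] at h2
  linarith

/-- trace of `A A'` for an adjoint pair -/
theorem IsIP.trace_pos [FiniteDimensional ℝ V] {Q : V →ₗ[ℝ] V →ₗ[ℝ] ℝ} (h : IsIP Q)
    {A A' : V →ₗ[ℝ] V} (hA : ∀ x y, Q (A x) y = Q x (A' y)) (h0 : A ≠ 0) :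
    0 < LinearMap.trace ℝ V (A' ∘ₗ A) := by
  obtain ⟨b, h1, h2⟩ := h.frame
  rw [h1]
  simp only [LinearMap.comp_apply, ← hA]
  refine Finset.sum_pos' (fun i _ => h.nonneg _) ?_
  by_contra! h3
  refine h0 (LinearMap.ext fun x => ?_)
  rw [h2 x, map_sum]
  exact Finset.sum_eq_zero fun i hi => by
    rw [map_smul, h.eq_zero ((h3 i hi).antisymm (h.nonneg _)), smul_zero]

/-- pointwise proportional linear maps are proportional -/
theorem prop_const (f g : V →ₗ[ℝ] W) (p : Submodule ℝ V) (hg : ∀ x ∈ p, g x = 0 → x = 0)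
    (h : ∀ x ∈ p, ∃ c : ℝ, f x = c • g x) : ∃ c : ℝ, ∀ x ∈ p, f x = c • g x := by
  by_cases h0 : ∃ x ∈ p, x ≠ 0
  swap
  · push Not at h0
    exact ⟨0, fun x hx => by simp [h0 x hx]⟩
  obtain ⟨x, hx, h0⟩ := h0
  obtain ⟨c, hc⟩ := h x hx
  refine ⟨c, fun y hy => ?_⟩
  obtain ⟨d, hd⟩ := h y hy
  obtain ⟨e, he⟩ := h (x + y) (add_mem hx hy)
  have h1 : (c - e) • x + (d - e) • y = 0 := hg _ (add_mem (p.smul_mem _ hx) (p.smul_mem _ hy)) (by
    rw [map_add, map_add, hc, hd] at he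
    rw [map_add, map_smul, map_smul]
    linear_combination (norm := module) he)
  by_cases h2 : d = e
  · rw [h2, sub_self, zero_smul, add_zero, smul_eq_zero, sub_eq_zero] at h1
    rw [hd, h2, h1.resolve_right h0]
  · have h3 : y = (-(c - e) / (d - e)) • x := by
      have h4 : d - e ≠ 0 := sub_ne_zero.2 h2
      refine smul_right_injective V h4 ?_
      simp only [smul_smul, mul_div_cancel₀ _ h4]
      linear_combination (norm := module) h1
    rw [h3, map_smul, map_smul, hc, smul_comm]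

/-- linear maps defined on each eigenspace -/
theorem exists_piece (T : V →ₗ[ℝ] V) (h : ⨆ l, End.eigenspace T l = ⊤) (σ : ℝ → V →ₗ[ℝ] W) :
    ∃ θ : V →ₗ[ℝ] W, ∀ l, ∀ x ∈ End.eigenspace T l, θ x = σ l x := by
  classical
  have h1 := DirectSum.isInternal_submodule_of_iSupIndep_of_iSup_eq_top
    (End.eigenspaces_iSupIndep T) h
  let e := LinearEquiv.ofBijective (DirectSum.coeLinearMap fun l => End.eigenspace T l) h1
  refine ⟨DirectSum.toModule ℝ ℝ W (fun l => σ l ∘ₗ (End.eigenspace T l).subtype) ∘ₗ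
    e.symm.toLinearMap, fun l x hx => ?_⟩
  have : e.symm x = DirectSum.lof ℝ ℝ (fun l => End.eigenspace T l) l ⟨x, hx⟩ := by
    rw [LinearEquiv.symm_apply_eq]
    exact (DirectSum.coeLinearMap_of (fun l => End.eigenspace T l) l ⟨x, hx⟩).symm
  simp [this]

/-- positivity on an orthogonal family -/
theorem pos_of_piece {ι : Type*} (p : ι → Submodule ℝ V) (h : ⨆ l, p l = ⊤)
    (F : V →ₗ[ℝ] V →ₗ[ℝ] ℝ) (h1 : ∀ l l', l ≠ l' → ∀ x ∈ p l, ∀ y ∈ p l', F x y = 0)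
    (h2 : ∀ l, ∀ x ∈ p l, x ≠ 0 → 0 < F x x) (x : V) (hx : x ≠ 0) : 0 < F x x := by
  obtain ⟨f, hf, rfl⟩ := (Submodule.mem_iSup_iff_exists_finsupp p x).1 (h ▸ Submodule.mem_top)
  have h3 : F (f.sum fun _ y => y) (f.sum fun _ y => y) = ∑ l ∈ f.support, F (f l) (f l) := by
    simp only [Finsupp.sum, map_sum, LinearMap.sum_apply]
    exact Finset.sum_congr rfl fun l hl =>
      Finset.sum_eq_single_of_mem l hl fun l' _ h4 => h1 l' l h4 _ (hf l') _ (hf l)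
  rw [h3]
  refine Finset.sum_pos (fun l hl => h2 l _ (hf l) (Finsupp.mem_support_iff.1 hl)) ?_
  by_contra h4
  rw [Finset.not_nonempty_iff_eq_empty] at h4
  exact hx (by simp [Finsupp.sum, h4])

/-- induction over a spanning family, for identities between linear expressions -/
theorem ext_piece {ι : Type*} (p : ι → Submodule ℝ V) (h : ⨆ l, p l = ⊤) {f g : V →ₗ[ℝ] W}
    (h1 : ∀ l, ∀ x ∈ p l, f x = g x) : f = g :=
  LinearMap.ext fun x => Submodule.iSup_induction p (motive := fun x => f x = g x)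
    (h ▸ Submodule.mem_top) h1 (by simp) fun x y hx hy => by rw [map_add, map_add, hx, hy]

end Vale.Agent.P207Z.Lie
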