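import Vale.Agent.P207Z.Lie.Lin

/-!
# Graded Lie algebras with a contact form: the Killing form, the map `τ`, the weights
-/

open Module LieAlgebra

noncomputable section

namespace Vale.Agent.P207Z.Lie

variable {g : Type*} [LieRing g] [LieAlgebra ℝ g]

/-- weight spaces of `ad H` -/
def wt (H : g) (l : ℝ) : Submodule ℝ g := End.eigenspace (ad ℝ g H) l

theorem mem_wt {H X : g} {l : ℝ} : X ∈ wt H l ↔ ⁅H, X⁆ = l • X := by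
  simp [wt]

theorem lie_mem_wt {H X Y : g} {l l' : ℝ} (hX : X ∈ wt H l) (hY : Y ∈ wt H l') :
    ⁅X, Y⁆ ∈ wt H (l + l') := by
  rw [mem_wt] at *
  rw [leibniz_lie, hX, hY, smul_lie, lie_smul, add_smul]

theorem self_mem_wt (H : g) : H ∈ wt H 0 := by simp [mem_wt]

/-- the data coming from the geometry -/
structure Inp (H : g) (μ : g →ₗ[ℝ] ℝ) : Prop where
  diag : ⨆ l, wt H l = ⊤
  mu_H : μ H = 1
  mu_lie : ∀ Z ∈ wt H 0, ∀ X : g, μ ⁅Z, X⁆ = 0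
  nd : ∀ X : g, (∀ Y : g, μ ⁅X, Y⁆ = 0) → X ∈ wt H 0
  inv : ∀ l, ∃ Q : g →ₗ[ℝ] g →ₗ[ℝ] ℝ, (∀ X ∈ wt H l, ∀ Y ∈ wt H l, Q X Y = Q Y X) ∧
    (∀ X ∈ wt H l, X ≠ 0 → 0 < Q X X) ∧
    ∀ Z ∈ wt H 0, μ Z = 0 → ∀ X ∈ wt H l, ∀ Y ∈ wt H l, Q ⁅Z, X⁆ Y + Q X ⁅Z, Y⁆ = 0
  faith : ∀ Z ∈ wt H 0, μ Z = 0 → (∀ X : g, ⁅Z, X⁆ = 0) → Z = 0
  ne : ∃ l, l ≠ 0 ∧ wt H l ≠ ⊥

variable (g) in
/-- the Killing form -/
abbrev B : g →ₗ[ℝ] g →ₗ[ℝ] ℝ := killingForm ℝ g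

theorem B_comm (X Y : g) : B g X Y = B g Y X := LieModule.traceForm_comm ℝ g g X Y

theorem B_lie (X Y Z : g) : B g ⁅X, Y⁆ Z = B g X ⁅Y, Z⁆ :=
  LieModule.traceForm_apply_lie_apply ℝ g g X Y Z

theorem B_skew (X Y Z : g) : B g ⁅X, Y⁆ Z = -B g Y ⁅X, Z⁆ :=
  LieModule.traceForm_apply_lie_apply' ℝ g g X Y Z

theorem B_wt {H X Y : g} {l l' : ℝ} (hX : X ∈ wt H l) (hY : Y ∈ wt H l') (h : l + l' ≠ 0) :
    B g X Y = 0 := by
  have := B_skew H X Y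
  rw [mem_wt.1 hX, mem_wt.1 hY, map_smul, map_smul, LinearMap.smul_apply, smul_eq_mul,
    smul_eq_mul] at this
  exact (mul_eq_zero.1 (by linarith : (l + l') * B g X Y = 0)).resolve_left h

variable {H : g} {μ : g →ₗ[ℝ] ℝ}

theorem Inp.mu_wt (h : Inp H μ) {X : g} {l : ℝ} (hX : X ∈ wt H l) (hl : l ≠ 0) : μ X = 0 := by
  have := h.mu_lie H (self_mem_wt H) X
  rw [mem_wt.1 hX, map_smul, smul_eq_zero] at this
  exact this.resolve_left hl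

theorem Inp.sub_m (h : Inp H μ) {X : g} (hX : X ∈ wt H 0) :
    X - μ X • H ∈ wt H 0 ∧ μ (X - μ X • H) = 0 :=
  ⟨sub_mem hX (Submodule.smul_mem _ _ (self_mem_wt H)), by simp [h.mu_H]⟩

theorem lie_mem_wt₀ {X Y : g} {l : ℝ} (hX : X ∈ wt H 0) (hY : Y ∈ wt H l) : ⁅X, Y⁆ ∈ wt H l := by
  simpa using lie_mem_wt hX hY

theorem exists_proj (h : ⨆ l, wt H l = ⊤) (p : ℝ → Prop) [DecidablePred p] :
    ∃ π : g →ₗ[ℝ] g, ∀ l, ∀ X ∈ wt H l, π X = if p l then X else 0 := by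
  obtain ⟨π, hπ⟩ := exists_piece (ad ℝ g H) h fun l => if p l then LinearMap.id else (0 : g →ₗ[ℝ] g)
  refine ⟨π, fun l X hX => ?_⟩
  rw [hπ l X hX]
  split_ifs <;> rfl

theorem ext₂ {W : Type*} [AddCommGroup W] [Module ℝ W] (h : ⨆ l, wt H l = ⊤)
    (F G : g →ₗ[ℝ] g →ₗ[ℝ] W) (h5 : ∀ l l', ∀ X ∈ wt H l, ∀ Y ∈ wt H l', F X Y = G X Y)
    (X Y : g) : F X Y = G X Y := by
  rw [ext_piece _ h fun l X hX => ext_piece _ h fun l' Y hY => h5 l l' X hX Y hY]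

open Classical in
theorem glue (h : ⨆ l, wt H l = ⊤) (Q : ℝ → g →ₗ[ℝ] g →ₗ[ℝ] ℝ)
    (h1 : ∀ l, ∀ X ∈ wt H l, ∀ Y ∈ wt H l, Q l X Y = Q l Y X)
    (h2 : ∀ l, ∀ X ∈ wt H l, X ≠ 0 → 0 < Q l X X) : ∃ Q' : g →ₗ[ℝ] g →ₗ[ℝ] ℝ, IsIP Q' ∧
      ∀ l l', ∀ X ∈ wt H l, ∀ Y ∈ wt H l', Q' X Y = if l' = l then Q l X Y else 0 := by
  choose π hπ using fun l : ℝ => exists_proj h (· = l)
  obtain ⟨Q', h3⟩ := exists_piece (ad ℝ g H) h fun l => (Q l).compl₂ (π l)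
  have h4 : ∀ l l', ∀ X ∈ wt H l, ∀ Y ∈ wt H l', Q' X Y = if l' = l then Q l X Y else 0 := by
    intro l l' X hX Y hY
    rw [h3 l X hX, LinearMap.compl₂_apply, hπ l l' Y hY]
    split_ifs <;> simp
  refine ⟨Q', ⟨ext₂ h Q' Q'.flip fun l l' X hX Y hY => ?_, pos_of_piece _ h Q' ?_ ?_⟩, h4⟩
  · rw [LinearMap.flip_apply, h4 l l' X hX Y hY, h4 l' l Y hY X hX]
    by_cases h5 : l = l'
    · subst h5
      simp [h1 l X hX Y hY]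
    · simp [h5, Ne.symm h5]
  · intro l l' h5 X hX Y hY
    rw [h4 l l' X hX Y hY, if_neg h5.symm]
  · intro l X hX h5
    rw [h4 l l X hX X hX, if_pos rfl]
    exact h2 l X hX h5

/-- an invariant inner product for which `ad H` is symmetric -/
theorem Inp.inv' (h : Inp H μ) : ∃ Q : g →ₗ[ℝ] g →ₗ[ℝ] ℝ, IsIP Q ∧
    (∀ X Y, Q ⁅H, X⁆ Y = Q X ⁅H, Y⁆) ∧
    ∀ Z ∈ wt H 0, μ Z = 0 → ∀ X Y, Q ⁅Z, X⁆ Y = -Q X ⁅Z, Y⁆ := by
  classical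
  choose Q h1 h2 h3 using h.inv
  obtain ⟨Q', h5, h4⟩ := glue h.diag Q h1 h2
  refine ⟨Q', h5, ext₂ h.diag (Q' ∘ₗ ad ℝ g H) (Q'.compl₂ (ad ℝ g H)) fun l l' X hX Y hY => ?_,
    fun Z hZ h0 => ext₂ h.diag (Q' ∘ₗ ad ℝ g Z) (-Q'.compl₂ (ad ℝ g Z)) fun l l' X hX Y hY => ?_⟩
  · simp only [LinearMap.comp_apply, LinearMap.compl₂_apply, ad_apply, mem_wt.1 hX, mem_wt.1 hY,
      map_smul, LinearMap.smul_apply, h4 l l' X hX Y hY]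
    split_ifs with h5 <;> simp [h5]
  · simp only [LinearMap.comp_apply, LinearMap.neg_apply, LinearMap.compl₂_apply, ad_apply,
      h4 l l' _ (lie_mem_wt₀ hZ hX) Y hY, h4 l l' X hX _ (lie_mem_wt₀ hZ hY)]
    split_ifs with h6
    · subst h6
      linarith [h3 _ Z hZ h0 X hX Y hY]
    · simp

variable [FiniteDimensional ℝ g]

theorem Inp.B_HH (h : Inp H μ) : 0 < B g H H := by
  obtain ⟨Q, h1, h2, -⟩ := h.inv'
  refine h1.trace_pos (A := ad ℝ g H) h2 fun h3 => ?_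
  obtain ⟨l, h4, h5⟩ := h.ne
  refine h5 (eq_bot_iff.2 fun X hX => ?_)
  have := mem_wt.1 hX
  rw [← ad_apply ℝ, h3, LinearMap.zero_apply, eq_comm, smul_eq_zero] at this
  exact this.resolve_left h4

theorem Inp.B_m (h : Inp H μ) {Z : g} (hZ : Z ∈ wt H 0) (h0 : μ Z = 0) (h4 : Z ≠ 0) :
    B g Z Z < 0 := by
  obtain ⟨Q, h1, -, h2⟩ := h.inv'
  have := h1.trace_pos (A := ad ℝ g Z) (A' := -ad ℝ g Z) (h2 Z hZ h0 · · |>.trans (map_neg _ _).symm)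
    fun h3 => h4 (h.faith Z hZ h0 fun X => LinearMap.congr_fun h3 X)
  rw [LinearMap.neg_comp, map_neg] at this
  exact neg_pos.1 this

theorem Inp.B_H (h : Inp H μ) (X : g) : B g H X = μ X * B g H H := by
  obtain ⟨Q, h1, h2, h3⟩ := h.inv'
  refine LinearMap.congr_fun (ext_piece _ h.diag (f := B g H) (g := μ.smulRight (B g H H))
    fun l X hX => ?_) X
  by_cases hl : l = 0
  · subst hl
    obtain ⟨h4, h5⟩ := h.sub_m hX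
    have h6 : B g H (X - μ X • H) = 0 :=
      h1.trace_symm_skew (S := ad ℝ g H) (A := ad ℝ g _) h2 (h3 _ h4 h5)
    simpa [sub_eq_zero] using h6
  · simp [h.mu_wt hX hl, B_wt (self_mem_wt H) hX (by simpa using hl)]

theorem Inp.eq_of_m (h : Inp H μ) {X : g} (hX : X ∈ wt H 0)
    (h1 : ∀ Z ∈ wt H 0, μ Z = 0 → B g Z X = 0) : X = μ X • H := by
  obtain ⟨h4, h5⟩ := h.sub_m hX
  by_contra h2
  have h3 := h.B_m h4 h5 (sub_ne_zero.2 h2)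
  rw [map_sub (B g _), h1 _ h4 h5, map_smul, B_comm, h.B_H, h5] at h3
  simp at h3

theorem Inp.B_nd (h : Inp H μ) {X : g} (h1 : ∀ Y, B g X Y = 0) : X = 0 := by
  have h2 : X ∈ wt H 0 := h.nd X fun Y => by
    have h3 := h.B_H ⁅X, Y⁆
    rw [← B_lie, B_skew, h1, neg_zero, eq_comm, mul_eq_zero] at h3
    exact h3.resolve_right h.B_HH.ne'
  have h3 := h.B_H X
  rw [B_comm, h1, eq_comm, mul_eq_zero] at h3
  rw [h.eq_of_m h2 fun Z _ _ => by rw [B_comm, h1], h3.resolve_right h.B_HH.ne', zero_smul]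

theorem Inp.B_ext (h : Inp H μ) {X X' : g} (h1 : ∀ Y, B g Y X = B g Y X') : X = X' :=
  sub_eq_zero.1 (h.B_nd fun Y => by rw [B_comm, map_sub, h1, sub_self])

/-- the properties of the map `τ` dual to an invariant inner product -/
structure Tau (H : g) (μ : g →ₗ[ℝ] ℝ) (τ : g →ₗ[ℝ] g) : Prop where
  symm : ∀ X Y, B g X (τ Y) = B g (τ X) Y
  neg : ∀ X, X ≠ 0 → B g X (τ X) < 0
  lie_H : ∀ X, τ ⁅H, X⁆ = -⁅H, τ X⁆
  lie_m : ∀ Z ∈ wt H 0, μ Z = 0 → ∀ X, τ ⁅Z, X⁆ = ⁅Z, τ X⁆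

theorem Inp.tau (h : Inp H μ) : ∃ τ τ', Tau H μ τ ∧ Tau H μ τ' ∧ (∀ X, τ (τ' X) = X) ∧
    ∀ X, τ' (τ X) = X := by
  obtain ⟨Q, h1, h2, h3⟩ := h.inv'
  have hB : LinearMap.BilinForm.Nondegenerate (B g) :=
    ⟨fun X h4 => h.B_nd h4, fun X h4 => h.B_nd fun Y => by rw [B_comm, h4]⟩
  have hQ : LinearMap.BilinForm.Nondegenerate Q :=
    ⟨fun X h4 => h1.eq_zero (h4 X), fun X h4 => h1.eq_zero (h4 X)⟩
  let τ := ((LinearMap.BilinForm.toDual Q hQ).trans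
    (LinearMap.BilinForm.toDual (B g) hB).symm).trans (LinearEquiv.neg ℝ)
  have h4 : ∀ X Y, B g X (τ Y) = -Q Y X := fun X Y => by
    rw [B_comm]
    simp [τ, LinearMap.BilinForm.toDual_def]
  have h5 : Tau H μ τ := by
    refine ⟨fun X Y => ?_, fun X hX => ?_,
      fun X => h.B_ext fun Y => ?_, fun Z hZ h0 X => h.B_ext fun Y => ?_⟩ <;>
      simp only [LinearEquiv.coe_coe]
    · rw [B_comm _ Y, h4, h4, h1.symm]
    · rw [h4]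
      linarith [h1.pos X hX]
    · rw [map_neg, ← B_skew, h4, h4, h2]
    · rw [h4, h3 Z hZ h0, ← h4, B_skew, neg_neg]
  refine ⟨τ, τ.symm, h5, ⟨fun X Y => ?_, fun X hX => ?_, fun X => τ.injective ?_,
    fun Z hZ h0 X => τ.injective ?_⟩, τ.apply_symm_apply, τ.symm_apply_apply⟩
  · simpa using (h5.symm (τ.symm X) (τ.symm Y)).symm
  · simpa [B_comm X] using h5.neg (τ.symm X) (by simpa using hX)
  · have := h5.lie_H (τ.symm X)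
    simp only [LinearEquiv.coe_coe, LinearEquiv.apply_symm_apply] at this ⊢
    rw [map_neg, this, neg_neg]
  · simpa using (h5.lie_m Z hZ h0 (τ.symm X)).symm

end Vale.Agent.P207Z.Lie
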