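import Vale.Agent.P207Z.Lie.RankA

/-!
# The weights and the key identity
-/

open Module LieAlgebra

noncomputable section

namespace Vale.Agent.P207Z.Lie

variable {g : Type*} [LieRing g] [LieAlgebra ℝ g] {H : g} {μ : g →ₗ[ℝ] ℝ} {τ : g →ₗ[ℝ] g}

theorem Tau.mem (t : Tau H μ τ) {X : g} {l : ℝ} (hX : X ∈ wt H l) : τ X ∈ wt H (-l) := by
  rw [mem_wt, ← neg_eq_iff_eq_neg.2 (t.lie_H X), mem_wt.1 hX, map_smul, neg_smul]

theorem Tau.smul (t : Tau H μ τ) {c : ℝ} (hc : 0 < c) : Tau H μ (c • τ) where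
  symm X Y := by simp [t.symm]
  neg X hX := by simpa using mul_neg_of_pos_of_neg hc (t.neg X hX)
  lie_H X := by rw [LinearMap.smul_apply, LinearMap.smul_apply, t.lie_H, lie_smul, smul_neg]
  lie_m Z hZ h0 X := by simp [t.lie_m Z hZ h0]

theorem Tau.eq_zero (t : Tau H μ τ) {X : g} (h : τ X = 0) : X = 0 :=
  by_contra fun h1 => by simpa [h] using t.neg X h1

theorem Tau.bot (t : Tau H μ τ) {l : ℝ} (h : wt H l = ⊥) : wt H (-l) = ⊥ :=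
  eq_bot_iff.2 fun X hX => t.eq_zero (by simpa [h] using t.mem hX)

variable [FiniteDimensional ℝ g]

theorem Tau.lie (t : Tau H μ τ) (h : Inp H μ) {X : g} {l : ℝ} (hX : X ∈ wt H l) :
    ⁅X, τ X⁆ = (l * B g X (τ X) / B g H H) • H := by
  have h1 := h.B_H ⁅X, τ X⁆
  rw [← B_lie, mem_wt.1 hX, map_smul, LinearMap.smul_apply, smul_eq_mul] at h1
  rw [h1, mul_div_cancel_right₀ _ h.B_HH.ne']
  refine h.eq_of_m (by simpa using lie_mem_wt hX (t.mem hX)) fun Z hZ h0 => ?_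
  have h2 := B_skew Z X (τ X)
  rw [← t.lie_m Z hZ h0, t.symm X, B_comm (τ X)] at h2
  rw [← B_lie]
  linarith

theorem Tau.prim (t : Tau H μ τ) (h : Inp H μ) {X Y : g} {l l' : ℝ} (hX : X ∈ wt H l)
    (hl : l ≠ 0) (h0 : X ≠ 0) (hY : Y ∈ wt H l') (h1 : Y ≠ 0) (h2 : ⁅X, Y⁆ = 0) :
    ∃ n : ℕ, 2 * l' / l = n := by
  have h3 := (t.neg X h0).ne
  have h4 := h.B_HH.ne'
  have s : IsSl2Triple ((2 / l) • H) X ((2 * B g H H / (l ^ 2 * B g X (τ X))) • τ X) := by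
    refine ⟨smul_ne_zero (by positivity) fun h5 => by simp [h5] at h4, ?_, ?_, ?_⟩
    · rw [lie_smul, t.lie h hX, smul_smul]
      congr 1
      field_simp
    · rw [smul_lie, mem_wt.1 hX, smul_smul, div_mul_cancel₀ _ hl, two_smul, two_smul]
    · rw [smul_lie, mem_wt.1 (Submodule.smul_mem _ _ (t.mem hX)), smul_smul, mul_neg,
        div_mul_cancel₀ _ hl, neg_smul, two_smul, two_smul]
  refine IsSl2Triple.HasPrimitiveVectorWith.exists_nat (t := s) (m := Y) ⟨h1, ?_, h2⟩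
  rw [smul_lie, mem_wt.1 hY, smul_smul]
  congr 1
  ring

theorem finite_wt (H : g) : {l | wt H l ≠ ⊥}.Finite :=
  (End.finite_hasEigenvalue (ad ℝ g H)).subset fun _ hl => End.hasEigenvalue_iff.2 hl

theorem Tau.int (t : Tau H μ τ) (h : Inp H μ) {l l' : ℝ} (hl : l ≠ 0) (h1 : wt H l ≠ ⊥)
    (h2 : wt H l' ≠ ⊥) : ∃ k : ℤ, 2 * l' / l = k := by
  obtain ⟨X, hX, h3⟩ := (Submodule.ne_bot_iff _).1 h1
  obtain ⟨Y, hY, h4⟩ := (Submodule.ne_bot_iff _).1 h2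
  have h5 : ∀ k : ℕ, (ad ℝ g X ^ k) Y ∈ wt H (l' + k * l) := fun k => by
    induction k with
    | zero => simpa using hY
    | succ k ih =>
      rw [pow_succ', End.mul_apply, ad_apply]
      convert lie_mem_wt hX ih using 2
      push_cast
      ring
  have h6 : ∃ k : ℕ, (ad ℝ g X ^ k) Y = 0 := by
    by_contra! h6
    refine Set.infinite_range_of_injective (f := fun k : ℕ => l' + k * l) (fun a b hab => ?_)
      ((finite_wt H).subset ?_)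
    · simpa [hl] using hab
    · rintro _ ⟨k, rfl⟩
      exact (Submodule.ne_bot_iff _).2 ⟨_, h5 k, h6 k⟩
  obtain ⟨n, h7, h8⟩ := Nat.exists_not_and_succ_of_not_zero_of_exists
    (p := fun k => (ad ℝ g X ^ k) Y = 0) (by simpa using h4) h6
  rw [pow_succ', End.mul_apply, ad_apply] at h8
  obtain ⟨m, hm⟩ := t.prim h hX hl h3 (h5 n) h7 h8
  refine ⟨m - 2 * n, ?_⟩
  push_cast
  rw [← hm]
  field_simp
  ring

theorem Tau.weights (t : Tau H μ τ) (h : Inp H μ) : ∃ a, 0 < a ∧ wt H a ≠ ⊥ ∧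
    ∀ l, wt H l ≠ ⊥ → l = 0 ∨ l = a ∨ l = -a ∨ l = 2 * a ∨ l = -(2 * a) := by
  have h0 : ∀ l, wt H l ≠ ⊥ → wt H (-l) ≠ ⊥ := fun l h1 h2 => h1 (by simpa using t.bot h2)
  obtain ⟨a, ⟨h1, h2⟩, h3⟩ := Set.exists_min_image {l | wt H l ≠ ⊥ ∧ 0 < l} id
    ((finite_wt H).subset fun _ hl => hl.1) (by
      obtain ⟨l, h1, h2⟩ := h.ne
      rcases h1.lt_or_gt with h3 | h3
      exacts [⟨-l, h0 l h2, neg_pos.2 h3⟩, ⟨l, h2, h3⟩])
  have h4 : ∀ l, wt H l ≠ ⊥ → 0 < l → l = a ∨ l = 2 * a := fun l h5 h6 => by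
    obtain ⟨k, hk⟩ := t.int h h6.ne' h5 h1
    have h7 : (0 : ℝ) < k := hk ▸ by positivity
    have h8 : (k : ℝ) ≤ 2 := hk ▸ (div_le_iff₀ h6).2 (by linarith [show a ≤ l from h3 l ⟨h5, h6⟩])
    have h9 : k = 1 ∨ k = 2 := by
      have : 0 < k := by exact_mod_cast h7
      have : k ≤ 2 := by exact_mod_cast h8
      omega
    rw [div_eq_iff h6.ne'] at hk
    rcases h9 with rfl | rfl <;> push_cast at hk
    exacts [.inr (by linarith), .inl (by linarith)]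
  refine ⟨a, h2, h1, fun l hl => ?_⟩
  rcases lt_trichotomy l 0 with h5 | h5 | h5
  · rcases h4 _ (h0 l hl) (neg_pos.2 h5) with h6 | h6 <;> simp [← h6]
  · exact .inl h5
  · rcases h4 _ hl h5 with h6 | h6 <;> simp [h6]

theorem Tau.key₀ (t : Tau H μ τ) (h : Inp H μ) {a : ℝ} (ha : 0 < a) (h3 : wt H (3 * a) = ⊥)
    {X Z : g} (hX : X ∈ wt H a) (hZ : Z ∈ wt H (2 * a)) (h1 : X ≠ 0) (h2 : Z ≠ 0) :
    ⁅Z, τ X⁆ ≠ 0 ∧ ∃ c : ℝ, 0 < c ∧ ⁅τ Z, X⁆ = c • τ ⁅Z, τ X⁆ := by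
  have hb := h.B_HH
  have e1 : ⁅X, Z⁆ = 0 := by simpa [show a + 2 * a = 3 * a by ring, h3] using lie_mem_wt hX hZ
  have e2 : ⁅τ Z, τ X⁆ = 0 := by
    simpa [show -(2 * a) + -a = -(3 * a) by ring, t.bot h3] using lie_mem_wt (t.mem hZ) (t.mem hX)
  have hU : ⁅Z, τ X⁆ ∈ wt H a := by
    convert lie_mem_wt hZ (t.mem hX) using 2
    ring
  have hV : ⁅τ Z, X⁆ ∈ wt H (-a) := by
    convert lie_mem_wt (t.mem hZ) hX using 2
    ring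
  have p1 := t.lie h hX
  have q1 := t.lie h hZ
  have p2 := t.neg X h1
  have q2 := t.neg Z h2
  set p := a * B g X (τ X) / B g H H with hp
  set q := 2 * a * B g Z (τ Z) / B g H H
  have e3 : ⁅τ Z, ⁅Z, τ X⁆⁆ = (q * a) • τ X := by
    rw [leibniz_lie, e2, lie_zero, add_zero, ← lie_skew (τ Z), q1, neg_lie, smul_lie,
      mem_wt.1 (t.mem hX), smul_smul, mul_neg, neg_smul, neg_neg]
  have e4 : ⁅X, ⁅Z, τ X⁆⁆ = -(p * (2 * a)) • Z := by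
    rw [leibniz_lie, e1, zero_lie, zero_add, p1, lie_smul, ← lie_skew, mem_wt.1 hZ, smul_neg,
      smul_smul, neg_smul]
  have e5 : B g ⁅Z, τ X⁆ ⁅τ Z, X⁆ < 0 := by
    rw [B_comm, B_lie, e4, map_smul, B_comm, smul_eq_mul]
    have : p < 0 := div_neg_of_neg_of_pos (mul_neg_of_pos_of_neg ha p2) hb
    nlinarith [mul_pos_of_neg_of_neg this q2]
  set U := ⁅Z, τ X⁆
  have h4 : U ≠ 0 := fun h5 => by simp [h5] at e5
  have e6 : ⁅U, ⁅τ Z, X⁆⁆ = -(a * p * q) • H := by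
    rw [leibniz_lie, ← lie_skew U (τ Z), ← lie_skew U X, e3, e4, neg_lie, smul_lie, lie_neg,
      lie_smul, ← lie_skew (τ X), ← lie_skew (τ Z), p1, q1]
    module
  have r2 := t.neg U h4
  have r3 : a * B g U (τ U) / B g H H ≠ 0 :=
    (div_neg_of_neg_of_pos (mul_neg_of_pos_of_neg ha r2) hb).ne
  have e7 : ⁅τ Z, X⁆ = (-(a * p * q) / (a * B g U (τ U) / B g H H)) • τ U := by
    by_contra h5
    obtain ⟨n, hn⟩ := t.prim h hU ha.ne' h4 (sub_mem hV (Submodule.smul_mem _ _ (t.mem hU)))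
      (sub_ne_zero.2 h5) (by
        rw [lie_sub, lie_smul, e6, t.lie h hU, smul_smul, div_mul_cancel₀ _ r3, sub_self])
    rw [mul_neg, neg_div, mul_div_cancel_right₀ _ ha.ne'] at hn
    linarith [n.cast_nonneg (α := ℝ)]
  refine ⟨h4, _, ?_, e7⟩
  rw [e7, map_smul, smul_eq_mul] at e5
  exact pos_of_mul_neg_left e5 r2.le

theorem Tau.key (t : Tau H μ τ) (h : Inp H μ) {a : ℝ} (ha : 0 < a) (h0 : wt H a ≠ ⊥)
    (h3 : wt H (3 * a) = ⊥) : ∃ c : ℝ, 0 < c ∧ ∀ X ∈ wt H a, ∀ Z ∈ wt H (2 * a),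
      ⁅τ Z, X⁆ = c • τ ⁅Z, τ X⁆ := by
  by_cases h1 : wt H (2 * a) = ⊥
  · exact ⟨1, one_pos, fun X _ Z hZ => by simp [(Submodule.eq_bot_iff _).1 h1 Z hZ]⟩
  obtain ⟨X₀, hX₀, h4⟩ := (Submodule.ne_bot_iff _).1 h0
  obtain ⟨Z₀, hZ₀, h5⟩ := (Submodule.ne_bot_iff _).1 h1
  have h6 : ∀ X ∈ wt H a, ∀ Z ∈ wt H (2 * a), ∃ c : ℝ, ⁅τ Z, X⁆ = c • τ ⁅Z, τ X⁆ := by
    intro X hX Z hZ
    by_cases h7 : X = 0 ∨ Z = 0
    · exact ⟨0, by rcases h7 with rfl | rfl <;> simp⟩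
    · exact ((t.key₀ h ha h3 hX hZ (not_or.1 h7).1 (not_or.1 h7).2).2).imp fun _ h8 => h8.2
  have h7 : ∀ X ∈ wt H a, ∀ Z ∈ wt H (2 * a), X ≠ 0 → Z ≠ 0 → τ ⁅Z, τ X⁆ ≠ 0 :=
    fun X hX Z hZ h8 h9 h10 => (t.key₀ h ha h3 hX hZ h8 h9).1 (t.eq_zero h10)
  obtain ⟨c, hc⟩ := prop_const (-ad ℝ g X₀ ∘ₗ τ) (-τ ∘ₗ ad ℝ g (τ X₀)) (wt H (2 * a))
    (fun Z hZ h8 => by_contra fun h9 => h7 X₀ hX₀ Z hZ h4 h9 (by simpa [← map_neg] using h8))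
    fun Z hZ => by simpa [← map_neg] using h6 X₀ hX₀ Z hZ
  have h8 : ∀ Z ∈ wt H (2 * a), ⁅τ Z, X₀⁆ = c • τ ⁅Z, τ X₀⁆ := fun Z hZ => by
    simpa [← map_neg] using hc Z hZ
  refine ⟨c, ?_, fun X hX Z hZ => ?_⟩
  · obtain ⟨-, c', h9, h10⟩ := t.key₀ h ha h3 hX₀ hZ₀ h4 h5
    rwa [smul_left_injective ℝ (h7 X₀ hX₀ Z₀ hZ₀ h4 h5) ((h8 Z₀ hZ₀).symm.trans h10)]
  by_cases h9 : Z = 0
  · simp [h9]
  obtain ⟨c', h10⟩ := prop_const (ad ℝ g (τ Z)) (τ ∘ₗ ad ℝ g Z ∘ₗ τ) (wt H a)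
    (fun X hX h8 => by_contra fun h11 => h7 X hX Z hZ h11 h9 h8) fun X hX => h6 X hX Z hZ
  rw [smul_left_injective ℝ (h7 X₀ hX₀ Z hZ h4 h9) ((h8 Z hZ).symm.trans (h10 X₀ hX₀))]
  exact h10 X hX

end Vale.Agent.P207Z.Lie
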