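import Vale.Agent.P207Z.Lie.RankB

/-!
# The Cartan involution
-/

open Module LieAlgebra

noncomputable section

namespace Vale.Agent.P207Z.Lie

variable {g : Type*} [LieRing g] [LieAlgebra ℝ g] [FiniteDimensional ℝ g] {H : g}
  {μ : g →ₗ[ℝ] ℝ}

/-- gluing -/
theorem Inp.piece (h : Inp H μ) (σ : ℝ → g →ₗ[ℝ] g) (h1 : ∀ l, l ≠ 0 → Tau H μ (σ l))
    (h0 : ∀ X, σ 0 X = X - (2 * μ X) • H) :
    ∃ θ, Tau H μ θ ∧ ∀ l, ∀ X ∈ wt H l, θ X = σ l X := by
  obtain ⟨θ, hθ⟩ := exists_piece (ad ℝ g H) h.diag σ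
  have h2 : ∀ l, ∀ X ∈ wt H l, θ X ∈ wt H (-l) := fun l X hX => by
    rw [hθ l X hX]
    by_cases hl : l = 0
    · subst hl
      rw [h0, neg_zero]
      exact sub_mem hX (Submodule.smul_mem _ _ (self_mem_wt H))
    · exact (h1 l hl).mem hX
  have h3 : ∀ l l', l ≠ l' → ∀ X ∈ wt H l, ∀ Y ∈ wt H l', B g X (θ Y) = 0 :=
    fun l l' h3 X hX Y hY => B_wt hX (h2 l' Y hY) (sub_ne_zero.2 h3)
  refine ⟨θ, ⟨fun X Y => ?_, fun X hX => ?_, fun X => ?_, fun Z hZ h4 X => ?_⟩, hθ⟩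
  · refine LinearMap.congr_fun₂ (ext_piece _ h.diag (f := (B g).compl₂ θ) (g := B g ∘ₗ θ)
      fun l X hX => ext_piece _ h.diag fun l' Y hY => ?_) X Y
    simp only [LinearMap.compl₂_apply, LinearMap.comp_apply]
    by_cases h4 : l = l'
    · subst h4
      rw [hθ l X hX, hθ l Y hY]
      by_cases hl : l = 0
      · subst hl
        simp only [h0, map_sub, map_smul, LinearMap.sub_apply, LinearMap.smul_apply, B_comm X H,
          h.B_H X, h.B_H Y, smul_eq_mul]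
        ring
      · exact (h1 l hl).symm X Y
    · rw [h3 l l' h4 X hX Y hY, B_comm, h3 l' l (Ne.symm h4) Y hY X hX]
  · refine neg_pos.1 (pos_of_piece _ h.diag (-(B g).compl₂ θ) (fun l l' h4 X hX Y hY => ?_)
      (fun l X hX h4 => ?_) X hX)
    · simp [h3 l l' h4 X hX Y hY]
    simp only [LinearMap.neg_apply, LinearMap.compl₂_apply, hθ l X hX, neg_pos]
    by_cases hl : l = 0
    swap
    · exact (h1 l hl).neg X h4
    subst hl
    obtain ⟨h5, h6⟩ := h.sub_m hX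
    have h7 : B g X (σ 0 X) = B g (X - μ X • H) (X - μ X • H) - μ X ^ 2 * B g H H := by
      simp only [h0, map_sub, map_smul, LinearMap.sub_apply, LinearMap.smul_apply, B_comm X H,
        h.B_H X, smul_eq_mul]
      ring
    rw [h7]
    by_cases h8 : μ X = 0
    · simpa [h8] using h.B_m hX h8 h4
    have h9 : 0 < μ X ^ 2 * B g H H := mul_pos (by positivity) h.B_HH
    by_cases h10 : X - μ X • H = 0
    · rw [h10]
      simpa using h9
    · linarith [h.B_m h5 h6 h10]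
  · refine LinearMap.congr_fun (ext_piece _ h.diag (f := θ ∘ₗ ad ℝ g H) (g := -ad ℝ g H ∘ₗ θ)
      fun l X hX => ?_) X
    simp [mem_wt.1 hX, mem_wt.1 (h2 l X hX)]
  · refine LinearMap.congr_fun (ext_piece _ h.diag (f := θ ∘ₗ ad ℝ g Z) (g := ad ℝ g Z ∘ₗ θ)
      fun l X hX => ?_) X
    have h5 := lie_mem_wt hZ hX
    rw [zero_add] at h5
    simp only [LinearMap.comp_apply, ad_apply, hθ l X hX, hθ l _ h5]
    by_cases hl : l = 0
    · subst hl
      rw [h0, h0, h.mu_lie Z hZ, lie_sub, lie_smul, ← lie_skew Z H, mem_wt.1 hZ]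
      simp
    · exact (h1 l hl).lie_m Z hZ h4 X

/-- the structure of a rank one algebra -/
structure Out (H : g) (μ : g →ₗ[ℝ] ℝ) (a : ℝ) (θ : g →ₗ[ℝ] g) : Prop where
  tau : Tau H μ θ
  a_pos : 0 < a
  a_ne : wt H a ≠ ⊥
  wts : ∀ l, wt H l ≠ ⊥ → l = 0 ∨ l = a ∨ l = -a ∨ l = 2 * a ∨ l = -(2 * a)
  invol : ∀ X, θ (θ X) = X
  zero : ∀ X ∈ wt H 0, θ X = X - (2 * μ X) • H
  lie : ∀ X Y, θ ⁅X, Y⁆ = ⁅θ X, θ Y⁆

theorem Inp.lie_of (h : Inp H μ) {θ : g →ₗ[ℝ] g} (t : Tau H μ θ) {a : ℝ} (ha : 0 < a)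
    (wts : ∀ l, wt H l ≠ ⊥ → l = 0 ∨ l = a ∨ l = -a ∨ l = 2 * a ∨ l = -(2 * a))
    (invol : ∀ X, θ (θ X) = X) (zero : ∀ X ∈ wt H 0, θ X = X - (2 * μ X) • H)
    (key : ∀ Z ∈ wt H (2 * a), ∀ X ∈ wt H a, θ ⁅Z, θ X⁆ = ⁅θ Z, X⁆) (X Y : g) :
    θ ⁅X, Y⁆ = ⁅θ X, θ Y⁆ := by
  let R (l l' : ℝ) := ∀ X ∈ wt H l, ∀ Y ∈ wt H l', θ ⁅X, Y⁆ = ⁅θ X, θ Y⁆
  have sy : ∀ {l l'}, R l l' → R l' l := fun h1 X hX Y hY => by
    rw [← lie_skew, map_neg, h1 Y hY X hX, lie_skew]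
  have ng : ∀ {l l'}, R l l' → R (-l) (-l') := fun h1 X hX Y hY => by
    have := h1 _ (by simpa using t.mem hX) _ (by simpa using t.mem hY)
    rw [invol, invol] at this
    rw [← this, invol]
  have z0 : ∀ l, R 0 l := fun l X hX Y _ => by
    obtain ⟨h1, h2⟩ := h.sub_m hX
    have h3 := t.lie_m _ h1 h2 Y
    rw [sub_lie, sub_lie, smul_lie, smul_lie, map_sub, map_smul, t.lie_H] at h3
    rw [zero X hX, sub_lie, smul_lie]
    linear_combination (norm := module) h3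
  have rot : ∀ {l l'}, R (l + l') (-l) → R l l' := fun {l l'} h1 X hX Y hY => h.B_ext fun W => by
    refine LinearMap.congr_fun (ext_piece _ h.diag (f := (B g).flip _) (g := (B g).flip _)
      fun k W hW => ?_) W
    simp only [LinearMap.flip_apply]
    by_cases hk : k = l + l'
    · subst hk
      rw [t.symm, ← B_lie, ← B_lie, t.symm, h1 W hW _ (t.mem hX), invol]
    · rw [B_wt hW (t.mem (lie_mem_wt hX hY)) (sub_ne_zero.2 hk),
        B_wt hW (lie_mem_wt (t.mem hX) (t.mem hY)) (by rw [← neg_add]; exact sub_ne_zero.2 hk)]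
  have r1 : R (2 * a) (-a) := fun Z hZ X hX => by
    simpa only [invol] using key Z hZ (θ X) (by simpa using t.mem hX)
  have r2 : R a a := rot (by rwa [← two_mul])
  have r3 : ∀ l, R l (-l) := fun l => rot (by rw [add_neg_cancel]; exact z0 _)
  have r4 : R (-(2 * a)) a := by simpa using ng r1
  have r5 : ∀ l, R (-l) l := fun l => sy (r3 l)
  have all : ∀ l l', R l l' := fun l l' => by
    by_cases h1 : wt H l = ⊥
    · intro X hX Y _
      simp [(Submodule.eq_bot_iff _).1 h1 X hX]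
    by_cases h2 : wt H l' = ⊥
    · intro X _ Y hY
      simp [(Submodule.eq_bot_iff _).1 h2 Y hY]
    by_cases h3 : wt H (l + l') = ⊥
    · intro X hX Y hY
      have h4 := lie_mem_wt (t.mem hX) (t.mem hY)
      rw [← neg_add, t.bot h3] at h4
      rw [(Submodule.eq_bot_iff _).1 h3 _ (lie_mem_wt hX hY), map_zero,
        (Submodule.mem_bot ℝ).1 h4]
    have h4 := wts _ h3
    clear_value R
    rcases wts l h1 with rfl | rfl | rfl | rfl | rfl <;>
    rcases wts l' h2 with h5 | h5 | h5 | h5 | h5 <;> rw [h5] at h4 ⊢ <;>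
    first
      | (exfalso; rcases h4 with h | h | h | h | h <;> linarith)
      | with_reducible first
        | exact z0 _ | exact sy (z0 _) | exact r1 | exact sy r1 | exact r2 | exact ng r2
        | exact r3 _ | exact r5 _ | exact r4 | exact sy r4
  let br : g →ₗ[ℝ] g →ₗ[ℝ] g := LinearMap.mk₂ ℝ (⁅·, ·⁆) add_lie smul_lie lie_add lie_smul
  exact LinearMap.congr_fun₂ (ext_piece _ h.diag (f := br.compr₂ θ) (g := (br ∘ₗ θ).compl₂ θ)
    fun l X hX => ext_piece _ h.diag fun l' Y hY => all l l' X hX Y hY) X Y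

theorem Inp.rank_one (h : Inp H μ) : ∃ a θ, Out H μ a θ := by
  classical
  obtain ⟨τ, τ', t, t', e1, e2⟩ := h.tau
  obtain ⟨a, ha, h1, h2⟩ := t.weights h
  have h3 : wt H (3 * a) = ⊥ := by
    by_contra h3
    rcases h2 _ h3 with h | h | h | h | h <;> linarith
  obtain ⟨c, hc, h4⟩ := t.key h ha h1 h3
  let s (l : ℝ) : ℝ := if l = a then 1 else c⁻¹
  have hs : ∀ l, 0 < s l := fun l => by
    simp only [s]
    split_ifs <;> positivity
  let σ (l : ℝ) : g →ₗ[ℝ] g := if l = 0 then LinearMap.id - (2 • μ).smulRight H else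
    if 0 < l then s l • τ else (s (-l))⁻¹ • τ'
  have h0 : ∀ X, σ 0 X = X - (2 * μ X) • H := fun X => by simp [σ]
  have h5 : ∀ l, 0 < l → σ l = s l • τ := fun l hl => by simp [σ, hl, hl.ne']
  have h6 : ∀ l, 0 < l → σ (-l) = (s l)⁻¹ • τ' := fun l hl => by simp [σ, hl.le, hl.ne']
  obtain ⟨θ, h7, h8⟩ := h.piece σ (fun l hl => by
    rcases hl.lt_or_gt with h7 | h7
    · rw [← neg_neg l, h6 _ (neg_pos.2 h7)]
      exact t'.smul (inv_pos.2 (hs _))
    · exact h5 l h7 ▸ t.smul (hs l)) h0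
  have h9 : ∀ X, θ (θ X) = X := fun X => by
    refine LinearMap.congr_fun (ext_piece _ h.diag (f := θ ∘ₗ θ) (g := LinearMap.id)
      fun l X hX => ?_) X
    rw [LinearMap.comp_apply, h8 _ _ (h7.mem hX), h8 l X hX, LinearMap.id_apply]
    rcases lt_trichotomy l 0 with hl | rfl | hl
    · obtain ⟨l, rfl⟩ := neg_surjective l
      rw [neg_neg, h5 l (neg_lt_zero.1 hl), h6 l (neg_lt_zero.1 hl)]
      simp [e1, smul_smul, (hs l).ne']
    · rw [neg_zero, h0, h0, map_sub, map_smul, h.mu_H, smul_eq_mul]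
      module
    · rw [h5 l hl, h6 l hl]
      simp [e2, smul_smul, (hs l).ne']
  have h10 : ∀ X ∈ wt H 0, θ X = X - (2 * μ X) • H := fun X hX => by rw [h8 0 X hX, h0]
  refine ⟨a, θ, h7, ha, h1, h2, h9, h10, h.lie_of h7 ha h2 h9 h10 fun Z hZ X hX => ?_⟩
  have h11 : ∀ X ∈ wt H a, θ X = τ X := fun X hX => by simp [h8 a X hX, h5 a ha, s]
  have h12 : θ Z = c⁻¹ • τ Z := by
    simp [h8 _ Z hZ, h5 (2 * a) (by positivity), s, show 2 * a ≠ a by linarith]
  rw [h11 X hX, h12, smul_lie, h4 X hX Z hZ, smul_smul, inv_mul_cancel₀ hc.ne', one_smul]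
  refine h11 _ ?_
  convert lie_mem_wt hZ (t.mem hX) using 2
  ring

end Vale.Agent.P207Z.Lie
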